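import Vale.Agent.P146.U.Spec
import Vale.Agent.P146.U.H240.Tr2
import Vale.Agent.P146.H676.Lb

/-!
The selection step of the K-side: from the hypotheses of `KStar` to a regular datum with growth.
-/

open MeasureTheory ProbabilityTheory Filter Topology

namespace Vale.Agent.P146.U.H479

open Vale.Agent.P157.Lv Vale.Agent.P146.H425 Vale.Agent.P146.H332
  Vale.Agent.P146.H325 Vale.Agent.P146.U Vale.Agent.P146.U.H979 Vale.Agent.P146.U.H240

set_option linter.unusedSectionVars false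

/-- telescoping -/
lemma tele {P : ℕ → ℝ} {k : ℕ} {d : ℝ} (hk : 1 ≤ k) (h : d ≤ P 0 - P k) :
    ∃ i < k, d / k ≤ P i - P (i + 1) := by
  by_contra hc
  push Not at hc
  have h1 : P 0 - P k = ∑ i ∈ Finset.range k, (P i - P (i + 1)) := by
    rw [Finset.sum_range_sub']
  have hk0 : (0 : ℝ) < k := by exact_mod_cast hk
  have h2 : ∑ i ∈ Finset.range k, (P i - P (i + 1)) < ∑ _i ∈ Finset.range k, d / k :=
    Finset.sum_lt_sum_of_nonempty ⟨0, Finset.mem_range.2 hk⟩ fun i hi =>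
      hc i (Finset.mem_range.1 hi)
  rw [Finset.sum_const, Finset.card_range, nsmul_eq_mul] at h2
  have h3 : (k : ℝ) * (d / k) = d := by field_simp
  rw [h3] at h2
  linarith

variable {n : ℕ} {β x a b T T' Δ : ℝ}

lemma c11_Fsk (n : ℕ) (β : ℝ) : ∃ D B L, C11 (Fsk n β) D B L :=
  ⟨_, _, _, c11_lz (β / √n) SkS⟩

/-- monotonicity in the window -/
lemma P2_mono_T (hβ : 0 ≤ β) (hx : 0 < x) (hxb : x < b) (hb : b < 1) (hT' : 0 ≤ T')
    (hTT : T' ≤ T) (hT : T ≤ 1) : P2 n β x T' b ≤ P2 n β x T b := by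
  obtain ⟨D, B, L, h⟩ := c11_Fsk n β
  have hk : 0 ≤ β / √(n : ℝ) := by positivity
  have h1 := H676.PT_ge (H676.gg_SkS n) hk h hx hxb hb hT' hTT hT
  have h3 := Ps_nonneg (x := x) (c := √(1 - T)) (s := √T) h (hx.trans hxb)
  have h4 : 0 ≤ (b - x) / 2 * (T - T') :=
    mul_nonneg (by linarith) (by linarith)
  have h2 := mul_nonneg h4 h3
  unfold Fsk at h2
  unfold P2 Fsk
  linarith

/-- monotonicity in the exponent -/
lemma P2_mono_b (hx : 0 < x) (ha : 0 < a) (hab : a ≤ b) : P2 n β x T a ≤ P2 n β x T b := by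
  obtain ⟨D, B, L, h⟩ := c11_Fsk n β
  exact PP_mono h (cv_lz _ _) hx ha hab

/-- the value at the exponent `x` does not depend on the window -/
lemma P2_x (hx : 0 < x) (hT : 0 ≤ T) (hT1 : T ≤ 1) : P2 n β x T x = P2 n β x 0 x := by
  obtain ⟨D, B, L, h⟩ := c11_Fsk n β
  unfold P2
  rw [PP_self h hx (a := 1) (by rw [Real.sq_sqrt (by linarith), Real.sq_sqrt hT]; ring),
    PP_self h hx (a := 1) (by rw [Real.sq_sqrt (by norm_num), Real.sq_sqrt le_rfl]; ring)]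

/-- **The selection, for given numbers.** -/
theorem ksel_fix (hβ : 0 ≤ β) {C1 L p0 c0 : ℝ} (hC1 : 1 ≤ C1) (hL : 1 ≤ L) (hc0 : 0 < c0)
    (_hc1 : c0 < 1) {k : ℕ} (hk : 1 ≤ k) (hkL : L ≤ 2 ^ k) {Λ N K : ℝ} (hΛ : Λ = C1 * k)
    (hN : 1 ≤ N) (hK2 : (2 : ℝ) ^ k ≤ K) (hK : 65536 * C1 * k * N ^ p0 ≤ K ^ (1 - c0))
    (hx : 0 < x) (hxa : x ≤ a) (ha : 2 * a < 1) (hT : 0 < T) {v : ℝ} (hv : v ≤ 1)
    (hKT : K * T ≤ v)
    (hΔ : Δ = P2 n β x T a - P2 n β x T x)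
    (h4 : P2 n β x T (4 * a) - P2 n β x T x ≤ C1 * Δ)
    (hL2 : P2 n β x (T / L) a - P2 n β x T x ≤ 1 / 2 * Δ)
    (hg : ∀ K N : ℝ, 1 ≤ K → 1 ≤ N → K * T ≤ v →
      P2 n β x (K * T) (N * a) - P2 n β x T x ≤ C1 * N ^ (1 + p0) * K ^ c0 * Δ)
    (hΔ0 : 0 < Δ) :
    ∃ i < k, KReg x a (T / 2 ^ i) (2 * Δ / (k * a * (T / 2 ^ i))) Λ N K (Fsk n β) := by
  have ha0 : 0 < a := hx.trans_le hxa
  have hk0 : (0 : ℝ) < k := by exact_mod_cast hk
  have hk1 : (1 : ℝ) ≤ k := by exact_mod_cast hk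
  have h2k : (1 : ℝ) ≤ 2 ^ k := one_le_pow₀ (by norm_num)
  have hK1 : 1 ≤ K := h2k.trans hK2
  have hK0 : 0 < K := by linarith
  have hT1 : T ≤ 1 := by
    have : T ≤ K * T := le_mul_of_one_le_left hT.le hK1
    linarith
  have hxa' : x < a := by
    rcases hxa.lt_or_eq with h | h
    · exact h
    · rw [← h, sub_self] at hΔ
      exact absurd hΔ hΔ0.ne'
  have hL0 : 0 < L := by linarith
  -- the telescoping sum
  have hend : P2 n β x (T / 2 ^ k) a ≤ P2 n β x (T / L) a := by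
    refine P2_mono_T hβ hx hxa' (by linarith) (by positivity) ?_
      ((div_le_self hT.le hL).trans hT1)
    exact div_le_div_of_nonneg_left hT.le hL0 hkL
  obtain ⟨i, hi, hi2⟩ := tele (P := fun i => P2 n β x (T / 2 ^ i) a) (k := k) (d := Δ / 2) hk (by
    simp only [pow_zero, div_one]
    linarith)
  refine ⟨i, hi, ?_⟩
  have h2i : (0 : ℝ) < 2 ^ i := by positivity
  have h2i1 : (1 : ℝ) ≤ 2 ^ i := one_le_pow₀ (by norm_num)
  have h2ik : (2 : ℝ) ^ i ≤ 2 ^ k := pow_le_pow_right₀ (by norm_num) hi.le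
  set Ti := T / 2 ^ i with hTi
  have hTi0 : 0 < Ti := by positivity
  have hTiT : Ti ≤ T := div_le_self hT.le h2i1
  have hTi1 : Ti ≤ 1 := hTiT.trans hT1
  have e1 : T / 2 ^ (i + 1) = Ti / 2 := by
    rw [hTi, pow_succ, div_div]
  rw [e1] at hi2
  have hρ : a * (2 * Δ / (k * a * Ti)) * Ti = 2 * Δ / k := by
    field_simp
  have hP0 : P2 n β x Ti x = P2 n β x T x := by
    rw [P2_x hx hTi0.le hTi1, P2_x hx hT.le hT1]
  -- the lower bound at the window `Ti`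
  have hge : P2 n β x T x ≤ P2 n β x Ti a := by
    rw [← hP0]
    exact P2_mono_b hx hx hxa
  refine ⟨⟨hx, hxa, hTi0, hTi1, ?_, by positivity, ?_, ?_⟩, ?_, ?_⟩
  · rw [hΛ]
    nlinarith
  · have e : a / 4 * (2 * Δ / (k * a * Ti) * Ti) = Δ / 2 / k := by
      field_simp
      norm_num
    rw [e]
    exact hi2
  · have e : a / 2 * (Λ * (2 * Δ / (k * a * Ti)) * Ti) = C1 * Δ := by
      rw [hΛ]
      field_simp
    rw [e]
    have u1 : P2 n β x Ti (2 * a) ≤ P2 n β x T (2 * a) :=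
      P2_mono_T hβ hx (by linarith) ha hTi0.le hTiT hT1
    have u2 : P2 n β x T (2 * a) ≤ P2 n β x T (4 * a) :=
      P2_mono_b hx (by linarith) (by linarith)
    have u3 : P2 n β x Ti (2 * a) - P2 n β x Ti a ≤ C1 * Δ := by linarith
    exact u3
  · exact (mul_le_mul_of_nonneg_left hTiT hK0.le).trans (hKT.trans hv)
  · have e : N * K / 65536 * (a * (2 * Δ / (k * a * Ti)) * Ti) = N * K / 65536 * (2 * Δ / k) := by
      rw [hρ]
    rw [e]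
    have hK' : 1 ≤ K / 2 ^ i := by
      rw [le_div_iff₀ h2i]
      linarith
    have hKT' : K / 2 ^ i * T = K * Ti := by
      rw [hTi]
      ring
    have g1 := hg (K / 2 ^ i) N hK' hN (by
      rw [hKT']
      exact (mul_le_mul_of_nonneg_left hTiT hK0.le).trans hKT)
    rw [hKT'] at g1
    have g2 : (K / 2 ^ i) ^ c0 ≤ K ^ c0 :=
      Real.rpow_le_rpow (by positivity) (div_le_self hK0.le h2i1) hc0.le
    have hN0 : 0 < N := by linarith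
    have g3 : N ^ (1 + p0) = N * N ^ p0 := by
      rw [Real.rpow_add hN0, Real.rpow_one]
    have hNp : 0 < N ^ p0 := Real.rpow_pos_of_pos hN0 _
    have hKc : 0 < K ^ c0 := Real.rpow_pos_of_pos hK0 _
    have g4 : K ^ (1 - c0) * K ^ c0 = K := by
      rw [← Real.rpow_add hK0]
      norm_num
    have g5 : C1 * N ^ (1 + p0) * (K / 2 ^ i) ^ c0 * Δ ≤ N * K / 65536 * (2 * Δ / k) := by
      have g6 : C1 * N ^ (1 + p0) * (K / 2 ^ i) ^ c0 * Δ ≤ C1 * (N * N ^ p0) * K ^ c0 * Δ := by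
        rw [g3]
        gcongr
      refine g6.trans ?_
      have g7 : 65536 * C1 * k * N ^ p0 * K ^ c0 ≤ K :=
        (mul_le_mul_of_nonneg_right hK hKc.le).trans g4.le
      have g8 : C1 * (N * N ^ p0) * K ^ c0 * Δ = N * (65536 * C1 * k * N ^ p0 * K ^ c0) / 65536 *
          (Δ / k) := by
        field_simp
      rw [g8]
      have hNΔ : 0 ≤ N * (Δ / k) := by positivity
      have g9 : N * (65536 * C1 * k * N ^ p0 * K ^ c0) / 65536 * (Δ / k) ≤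
          N * K / 65536 * (Δ / k) := by
        gcongr
      have g10 : N * K / 65536 * (2 * Δ / k) = N * K / 65536 * (Δ / k) + N * K / 65536 * (Δ / k) := by
        ring
      have g11 : 0 ≤ N * K / 65536 * (Δ / k) := by positivity
      linarith
    have g12 : P2 n β x (K * Ti) (N * a) - P2 n β x Ti a ≤ N * K / 65536 * (2 * Δ / k) := by
      linarith
    exact g12

/-- **The selection step of the K-side.** -/
theorem ksel (hβ : 0 ≤ β) {C1 L p0 c0 : ℝ} (hC1 : 1 ≤ C1) (hL : 1 ≤ L) (hc0 : 0 < c0)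
    (hc1 : c0 < 1) : ∃ (k : ℕ) (Λ N K : ℝ) (n0 : ℕ), 1 ≤ k ∧ L ≤ 2 ^ k ∧ Λ = C1 * k ∧
      N = 150 * (2 * Λ + 1) ∧ (2 : ℝ) ^ k ≤ K ∧ 6 ≤ K ∧ 65536 * C1 * k * N ^ p0 ≤ K ^ (1 - c0) ∧
      ∀ n : ℕ, n0 ≤ n → ∀ x a T Δ : ℝ, 0 < x → x ≤ a → a ≤ (n : ℝ) ^ (-(1 / 20) : ℝ) →
      0 < T → T ≤ (n : ℝ) ^ (-(1 / 10) : ℝ) →
      Δ = P2 n β x T a - P2 n β x T x →
      P2 n β x T (4 * a) - P2 n β x T x ≤ C1 * Δ →
      P2 n β x (T / L) a - P2 n β x T x ≤ 1 / 2 * Δ →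
      (∀ K N : ℝ, 1 ≤ K → 1 ≤ N → K * T ≤ (n : ℝ) ^ (-(1 / 20) : ℝ) →
        P2 n β x (K * T) (N * a) - P2 n β x T x ≤ C1 * N ^ (1 + p0) * K ^ c0 * Δ) →
      0 < Δ →
      ∃ i < k, KReg x a (T / 2 ^ i) (2 * Δ / (k * a * (T / 2 ^ i))) Λ N K (Fsk n β) := by
  obtain ⟨k, hk, hkL⟩ : ∃ k : ℕ, 1 ≤ k ∧ L ≤ 2 ^ k := by
    obtain ⟨k, hk⟩ := pow_unbounded_of_one_lt L (by norm_num : (1 : ℝ) < 2)
    refine ⟨k + 1, by omega, hk.le.trans ?_⟩
    exact pow_le_pow_right₀ (by norm_num) (by omega)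
  have hk1 : (1 : ℝ) ≤ k := by exact_mod_cast hk
  obtain ⟨Λ, hΛ⟩ : ∃ Λ : ℝ, Λ = C1 * k := ⟨_, rfl⟩
  have hΛ1 : 1 ≤ Λ := by
    rw [hΛ]
    nlinarith
  obtain ⟨N, hN⟩ : ∃ N : ℝ, N = 150 * (2 * Λ + 1) := ⟨_, rfl⟩
  have hN1 : 1 ≤ N := by
    rw [hN]
    linarith
  have hev := (tendsto_rpow_atTop (by linarith : 0 < 1 - c0)).eventually_ge_atTop
    (65536 * C1 * k * N ^ p0)
  obtain ⟨K, hK, hK2⟩ := (hev.and (eventually_ge_atTop (max ((2 : ℝ) ^ k) 6))).exists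
  have hKk := (le_max_left _ _).trans hK2
  have hK6 := (le_max_right _ _).trans hK2
  have hev2 := ((tendsto_rpow_atTop (by norm_num : (0 : ℝ) < 1 / 20)).comp
    tendsto_natCast_atTop_atTop).eventually_ge_atTop (max K 3)
  obtain ⟨n0, hn0⟩ := Filter.eventually_atTop.1 hev2
  refine ⟨k, Λ, N, K, max n0 1, hk, hkL, hΛ, hN, hKk, hK6, hK, ?_⟩
  intro n hn x a T Δ hx hxa ha hT hT2 hΔ h4 hL2 hg hΔ0
  have hn1 : 1 ≤ n := (le_max_right _ _).trans hn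
  have hnp : (0 : ℝ) < n := by exact_mod_cast hn1
  have hb := hn0 n ((le_max_left _ _).trans hn)
  simp only [Function.comp] at hb
  have hKn : K ≤ (n : ℝ) ^ (1 / 20 : ℝ) := (le_max_left _ _).trans hb
  have h3n : 3 ≤ (n : ℝ) ^ (1 / 20 : ℝ) := (le_max_right _ _).trans hb
  have hinv : (n : ℝ) ^ (-(1 / 20) : ℝ) * (n : ℝ) ^ (1 / 20 : ℝ) = 1 := by
    rw [← Real.rpow_add hnp]
    norm_num
  have hv0 : 0 < (n : ℝ) ^ (-(1 / 20) : ℝ) := Real.rpow_pos_of_pos hnp _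
  have hv : (n : ℝ) ^ (-(1 / 20) : ℝ) ≤ 1 / 3 := by
    rw [le_div_iff₀ (by norm_num)]
    calc (n : ℝ) ^ (-(1 / 20) : ℝ) * 3 ≤ (n : ℝ) ^ (-(1 / 20) : ℝ) * (n : ℝ) ^ (1 / 20 : ℝ) :=
          mul_le_mul_of_nonneg_left h3n hv0.le
      _ = 1 := hinv
  have hKT : K * T ≤ (n : ℝ) ^ (-(1 / 20) : ℝ) := by
    calc K * T ≤ (n : ℝ) ^ (1 / 20 : ℝ) * (n : ℝ) ^ (-(1 / 10) : ℝ) := by gcongr
      _ = (n : ℝ) ^ (-(1 / 20) : ℝ) := by
        rw [← Real.rpow_add hnp]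
        norm_num
  exact ksel_fix hβ hC1 hL hc0 hc1 hk hkL hΛ hN1 hKk hK hx hxa (by linarith) hT (by linarith)
    hKT hΔ h4 hL2 hg hΔ0

end Vale.Agent.P146.U.H479
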