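import Vale.Agent.P146.U.AP

/-!
The start of the lower half: from the sharp law of the exponential moments for `x ≥ n ^ (-a)` to
the two-sided bound of the share `Wn` of the pure law (general form).
-/

open MeasureTheory ProbabilityTheory Filter Topology

namespace Vale.Agent.P146.U.H479

open Vale.Agent.P157.Lv Vale.Agent.P146 Vale.Agent.P146.H425 Vale.Agent.P146.R1
  Vale.Agent.P146.H332 Vale.Agent.P146.H325 Vale.Agent.P146.U Vale.Agent.P146.U.AP
open Vale.Agent.P146.H196 (meanF)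

/-- the recentred moment -/
lemma Kn_p {n : ℕ} {β b p : ℝ} :
    Real.log (∫ g, Real.exp (b * (freeEnergy n β g - n * p)) ∂(disorder n)) =
      Kn n β b - b * (n * p - meanF n β) := by
  have h0 : 0 < ∫ g, Real.exp (b * (freeEnergy n β g - meanF n β)) ∂(disorder n) := by
    have e : ∀ g, Real.exp (b * (freeEnergy n β g - meanF n β)) =
        Real.exp (-(b * meanF n β)) * Real.exp (b * Fsk n β g) := by
      intro g
      rw [Fsk_eq, ← Real.exp_add]
      congr 1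
      ring
    simp only [e]
    rw [integral_const_mul]
    exact mul_pos (Real.exp_pos _) (integral_exp_pos (μ := gI (Pair n))
      ((lip_Fsk n β).exp_eg b).integrable)
  have e : ∫ g, Real.exp (b * (freeEnergy n β g - n * p)) ∂(disorder n) =
      Real.exp (-(b * (n * p - meanF n β))) *
        ∫ g, Real.exp (b * (freeEnergy n β g - meanF n β)) ∂(disorder n) := by
    rw [← integral_const_mul]
    refine integral_congr_ae (Filter.Eventually.of_forall fun g => ?_)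
    simp only
    rw [← Real.exp_add]
    congr 1
    ring
  rw [e, Real.log_mul (Real.exp_pos _).ne' h0.ne', Real.log_exp, Kn]
  ring

/-- **From the exponential moments to the share.** -/
theorem Wn_of_Kn {n : ℕ} {β x Λ ε : ℝ} (hx : 0 < x)
    (h1 : |Kn n β x - Λ * (n * x ^ 6)| ≤ ε * (n * x ^ 6))
    (h2 : |Kn n β (2 * x) - Λ * (n * (2 * x) ^ 6)| ≤ ε * (n * (2 * x) ^ 6))
    (h3 : |Kn n β (x / 2) - Λ * (n * (x / 2) ^ 6)| ≤ ε * (n * (x / 2) ^ 6)) :
    (31 / 8 * Λ - 33 / 8 * ε) * (n * x ^ 4) ≤ Wn n β x ∧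
      Wn n β x ≤ (62 * Λ + 66 * ε) * (n * x ^ 4) := by
  have a1 := abs_le.1 h1
  have a2 := abs_le.1 h2
  have a3 := abs_le.1 h3
  have hx2 : 0 < 2 * x := by positivity
  have hx3 : 0 < x / 2 := by positivity
  have v1 : Kn n β x / x ≤ (Λ + ε) * (n * x ^ 5) := by
    rw [div_le_iff₀ hx]
    nlinarith [a1.2]
  have v1' : (Λ - ε) * (n * x ^ 5) ≤ Kn n β x / x := by
    rw [le_div_iff₀ hx]
    nlinarith [a1.1]
  have v2 : Kn n β (2 * x) / (2 * x) ≤ (Λ + ε) * (n * (2 * x) ^ 5) := by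
    rw [div_le_iff₀ hx2]
    nlinarith [a2.2]
  have v3 : Kn n β (x / 2) / (x / 2) ≤ (Λ + ε) * (n * (x / 2) ^ 5) := by
    rw [div_le_iff₀ hx3]
    nlinarith [a3.2]
  constructor
  · -- the tangent at the exponent `x`, below
    have h := PP_tangent (c11_Fsk n β) (cv_Fsk n β) hx hx hx3 (c := 0) (s := 1)
    have e1 : PP x (x / 2) 0 1 (Fsk n β) = W (x / 2) 1 (Fsk n β) 0 := PP_c0 hx
    have e2 : PP x x 0 1 (Fsk n β) = W x 1 (Fsk n β) 0 := PP_c0 hx
    rw [e1, e2, W_one_Kn hx3, W_one_Kn hx] at h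
    have h' : x * Wn n β x ≥ 4 * (Kn n β x / x - Kn n β (x / 2) / (x / 2)) := by
      unfold Wn
      linarith
    have h5 : 4 * ((Λ - ε) * (n * x ^ 5) - (Λ + ε) * (n * (x / 2) ^ 5)) ≤ x * Wn n β x := by
      linarith
    have e3 : 4 * ((Λ - ε) * (n * x ^ 5) - (Λ + ε) * (n * (x / 2) ^ 5)) =
        x * ((31 / 8 * Λ - 33 / 8 * ε) * (n * x ^ 4)) := by ring
    rw [e3] at h5
    exact le_of_mul_le_mul_left h5 hx
  · have h := PP_tangent (c11_Fsk n β) (cv_Fsk n β) hx hx hx2 (c := 0) (s := 1)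
    have e1 : PP x (2 * x) 0 1 (Fsk n β) = W (2 * x) 1 (Fsk n β) 0 := PP_c0 hx
    have e2 : PP x x 0 1 (Fsk n β) = W x 1 (Fsk n β) 0 := PP_c0 hx
    rw [e1, e2, W_one_Kn hx2, W_one_Kn hx] at h
    have h' : x * Wn n β x ≤ 2 * (Kn n β (2 * x) / (2 * x) - Kn n β x / x) := by
      unfold Wn
      linarith
    have h5 : x * Wn n β x ≤ 2 * ((Λ + ε) * (n * (2 * x) ^ 5) - (Λ - ε) * (n * x ^ 5)) := by
      linarith
    have e3 : 2 * ((Λ + ε) * (n * (2 * x) ^ 5) - (Λ - ε) * (n * x ^ 5)) =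
        x * ((62 * Λ + 66 * ε) * (n * x ^ 4)) := by ring
    rw [e3] at h5
    exact le_of_mul_le_mul_left h5 hx

end Vale.Agent.P146.U.H479
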